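import Vale.Agent.P269CV.Alg
import Vale.Agent.P269C.Spec

/-!
P269 block C, row C1: algebra of the functional `tau`, pull backs, the quotient ring of forms.
-/

noncomputable section

namespace Vale.Agent.P269CG

open MvPolynomial Vale.Agent.P269C Vale.Agent.P269CV Vale.Agent.P272.K
open scoped Matrix

variable {D D' D'' : ℕ}

/-- `tau` as a linear map. -/
def tauL (D : ℕ) : Po D →ₗ[ℂ] ℂ := ⟨⟨tau, tau_add⟩, tau_smul⟩

@[simp] theorem tauL_apply (P : Po D) : tauL D P = tau P := rfl

theorem tau_sum {J : Type*} (s : Finset J) (f : J → Po D) :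
    tau (∑ j ∈ s, f j) = ∑ j ∈ s, tau (f j) := map_sum (tauL D) f s

theorem tau_C_mul (c : ℂ) (P : Po D) : tau (C c * P) = c * tau P := by
  rw [← smul_eq_C_mul, tau_smul]

theorem tau_neg (P : Po D) : tau (-P) = -tau P := map_neg (tauL D) P

theorem tau_sub (P Q : Po D) : tau (P - Q) = tau P - tau Q := map_sub (tauL D) P Q

/-- Linear maps on polynomials are determined by the products of variables. -/
theorem lin_ind {σ : Type} {p : MvPolynomial σ ℂ → Prop} (h0 : p 0)
    (ha : ∀ P Q, p P → p Q → p (P + Q)) (hs : ∀ (c : ℂ) P, p P → p (c • P))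
    (h : ∀ n (f : Fin n → σ), p (∏ i, X (f i))) (P : MvPolynomial σ ℂ) : p P := by
  have key : P ∈ Submodule.span ℂ {R | ∃ n, ∃ f : Fin n → σ, R = ∏ i, X (f i)} := by
    induction P using MvPolynomial.induction_on with
    | C a =>
      rw [← mul_one (C a), ← smul_eq_C_mul]
      exact Submodule.smul_mem _ _ (Submodule.subset_span ⟨0, Fin.elim0, by simp⟩)
    | add P Q hP hQ => exact add_mem hP hQ
    | mul_X P j hP =>
      induction hP using Submodule.span_induction with
      | mem R hR =>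
        obtain ⟨n, f, rfl⟩ := hR
        exact Submodule.subset_span ⟨n + 1, Fin.cons j f, by simp [Fin.prod_univ_succ, mul_comm]⟩
      | zero => simp
      | add R S _ _ hR hS => rw [add_mul]; exact add_mem hR hS
      | smul c R _ hR => rw [smul_mul_assoc]; exact Submodule.smul_mem _ _ hR
  induction key using Submodule.span_induction with
  | mem R hR => obtain ⟨n, f, rfl⟩ := hR; exact h n f
  | zero => exact h0
  | add R S _ _ hR hS => exact ha _ _ hR hS
  | smul c R _ hR => exact hs _ _ hR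

theorem mono_iff (k l : Fin D → Fin D) (σ : Equiv.Perm (Fin D)) :
    (∑ i, Finsupp.single (k i, l i) 1 = ∑ r, Finsupp.single (r, σ r) (1 : ℕ)) ↔
      ∃ κ : Equiv.Perm (Fin D), k = κ ∧ l = ⇑(σ * κ) := by
  constructor
  · intro h
    have h1 : Function.Surjective k := fun r => by
      by_contra hn
      have := DFunLike.congr_fun h (r, σ r)
      simp only [Finsupp.coe_finsetSum, Finset.sum_apply, Finsupp.single_apply] at this
      rw [Finset.sum_eq_zero fun i _ => if_neg fun e => hn ⟨i, (Prod.ext_iff.1 e).1⟩] at this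
      simp at this
    refine ⟨Equiv.ofBijective k (Finite.surjective_iff_bijective.1 h1), rfl, funext fun i => ?_⟩
    by_contra hn
    have := DFunLike.congr_fun h (k i, l i)
    simp only [Finsupp.coe_finsetSum, Finset.sum_apply, Finsupp.single_apply] at this
    rw [Finset.sum_eq_zero (s := Finset.univ) (f := fun r => if (r, σ r) = (k i, l i) then 1 else 0)
      fun r _ => if_neg fun e => hn ?_, Finset.sum_eq_zero_iff] at this
    · simpa using this i (Finset.mem_univ i)
    · obtain ⟨rfl, e2⟩ := Prod.ext_iff.1 e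
      exact e2.symm
  · rintro ⟨κ, rfl, rfl⟩
    exact Equiv.sum_comp κ fun r => Finsupp.single (r, σ r) 1

theorem coeff_prod_X (k l : Fin D → Fin D) (σ : Equiv.Perm (Fin D)) :
    coeff (∑ r, Finsupp.single (r, σ r) 1) (∏ i, X (k i, l i) : Po D) =
      ∑ κ : Equiv.Perm (Fin D), if k = κ ∧ l = ⇑(σ * κ) then 1 else 0 := by
  have e : (∏ i, X (k i, l i) : Po D) = monomial (∑ i, Finsupp.single (k i, l i) 1) 1 := by
    rw [monomial_sum_one]; rfl
  rw [e, coeff_monomial]
  split_ifs with h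
  · obtain ⟨κ, rfl, rfl⟩ := (mono_iff k l σ).1 h
    rw [Finset.sum_eq_single κ (fun κ' _ hn => if_neg fun e => hn (DFunLike.coe_injective e.1).symm)
      (by simp)]
    simp
  · exact (Finset.sum_eq_zero fun κ _ => if_neg fun e => h ((mono_iff k l σ).2 ⟨κ, e⟩)).symm

/-- The form `(i / 2π) (∑ a_m dz_m) ∧ (∑ b_n dz̄_n)`. -/
def Lf (a b : Fin D → ℂ) : Po D := ∑ m, ∑ n, C (a m * b n) * X (m, n)

theorem Lf_single (k l : Fin D) : Lf (Pi.single k 1) (Pi.single l 1) = X (k, l) := by
  simp [Lf, Pi.single_apply, ite_mul, mul_ite, apply_ite C]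

theorem Lf_hom (a b : Fin D → ℂ) : (Lf a b).IsHomogeneous 1 :=
  IsHomogeneous.sum _ _ _ fun _ _ => IsHomogeneous.sum _ _ _ fun _ _ =>
    (isHomogeneous_X _ _).C_mul _

theorem tau_prod_Lf (A B : Matrix (Fin D) (Fin D) ℂ) :
    tau (∏ i, Lf (A i) (B i)) = A.det * B.det / Real.pi ^ D := by
  have e : ∏ i, Lf (A i) (B i) = ∑ k : Fin D → Fin D, ∑ l : Fin D → Fin D,
      C ((∏ i, A i (k i)) * ∏ i, B i (l i)) * ∏ i, X (k i, l i) := by
    simp only [Lf, Finset.prod_univ_sum, Fintype.piFinset_univ, Finset.prod_mul_distrib, map_mul,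
      map_prod]
  rw [e, tau]
  congr 1
  simp only [coeff_sum, coeff_C_mul, coeff_prod_X, Finset.mul_sum, mul_ite, mul_one, mul_zero]
  rw [← Matrix.det_transpose A, ← Matrix.det_transpose B, Matrix.det_apply', Matrix.det_apply',
    Finset.sum_mul_sum]
  have h1 (σ : Equiv.Perm (Fin D)) : (∑ k : Fin D → Fin D, ∑ l : Fin D → Fin D,
      ∑ κ : Equiv.Perm (Fin D), if k = κ ∧ l = ⇑(σ * κ) then
        (σ.sign : ℂ) * ((∏ i, A i (k i)) * ∏ i, B i (l i)) else 0) = ∑ κ : Equiv.Perm (Fin D),
        (σ.sign : ℂ) * ((∏ i, A i (κ i)) * ∏ i, B i ((σ * κ) i)) := by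
    simp only [ite_and]
    rw [Finset.sum_congr rfl fun k _ => Finset.sum_comm, Finset.sum_comm]
    refine Finset.sum_congr rfl fun κ _ => ?_
    simp only [Finset.sum_ite_irrel, Finset.sum_const_zero, Finset.sum_ite_eq', Finset.mem_univ,
      if_true]
  rw [Finset.sum_congr rfl fun σ _ => h1 σ, Finset.sum_comm]
  refine Finset.sum_congr rfl fun κ _ => ?_
  conv_rhs => rw [← Equiv.sum_comp (Equiv.mulRight κ)]
  refine Finset.sum_congr rfl fun σ _ => ?_
  have h2 : ((κ.sign : ℤ) : ℂ) * (κ.sign : ℤ) = 1 := by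
    rw [← Int.cast_mul, ← Units.val_mul, Int.units_mul_self]; simp
  simp only [Equiv.coe_mulRight, map_mul, Units.val_mul, Int.cast_mul, Matrix.transpose_apply]
  linear_combination (-((σ.sign : ℤ) : ℂ) * (∏ i, A i (κ i)) * ∏ i, B i ((σ * κ) i)) * h2

theorem prod_Lf_hom {n : ℕ} (a b : Fin n → Fin D → ℂ) : (∏ i, Lf (a i) (b i)).IsHomogeneous n := by
  simpa using IsHomogeneous.prod Finset.univ (fun i => Lf (a i) (b i)) (fun _ => 1)
    fun i _ => Lf_hom _ _

/-- Induction over the products of decomposable forms. -/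
theorem Lf_ind {p : Po D → Prop} (h0 : p 0)
    (ha : ∀ P Q, p P → p Q → p (P + Q)) (hs : ∀ (c : ℂ) P, p P → p (c • P))
    (h : ∀ n (a b : Fin n → Fin D → ℂ), p (∏ i, Lf (a i) (b i))) (P : Po D) : p P :=
  lin_ind h0 ha hs (fun n f => by
    simpa only [Lf_single] using h n (fun i => Pi.single (f i).1 1) fun i => Pi.single (f i).2 1) P

/-- The ideal of the polynomials that vanish as forms. -/
def Nul (D : ℕ) : Ideal (Po D) where
  carrier := {P | ∀ γ, tau (γ * P) = 0}
  add_mem' ha hb γ := by rw [mul_add, tau_add, ha γ, hb γ, add_zero]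
  zero_mem' γ := by rw [mul_zero, tau_zero]
  smul_mem' c P h γ := by rw [smul_eq_mul, ← mul_assoc, h]

theorem mem_Nul {P : Po D} : P ∈ Nul D ↔ ∀ γ, tau (γ * P) = 0 := Iff.rfl

theorem Lf_swap (a b a' b' : Fin D → ℂ) : Lf a b * Lf a' b' + Lf a' b * Lf a b' ∈ Nul D := by
  intro γ
  induction γ using Lf_ind with
  | h0 => rw [zero_mul, tau_zero]
  | ha P Q hP hQ => rw [add_mul, tau_add, hP, hQ, add_zero]
  | hs c P hP => rw [smul_mul_assoc, tau_smul, hP, mul_zero]
  | h n u v =>
    by_cases hn : n + 2 = D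
    · subst hn
      have e (a a' : Fin (n + 2) → ℂ) : (∏ i, Lf (u i) (v i)) * (Lf a b * Lf a' b') =
          ∏ i, Lf ((Matrix.of (Fin.cons a (Fin.cons a' u) : Fin (n + 2) → _)) i)
            ((Matrix.of (Fin.cons b (Fin.cons b' v) : Fin (n + 2) → _)) i) := by
        have (w : Fin (n + 2) → Fin (n + 2) → ℂ) (i) : Matrix.of w i = w i := rfl
        simp only [Fin.prod_univ_succ, this, Fin.cons_zero, Fin.cons_succ]
        ring
      rw [mul_add, tau_add, e, e, tau_prod_Lf, tau_prod_Lf, ← add_div, ← add_mul]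
      have e2 : Matrix.of (Fin.cons a' (Fin.cons a u) : Fin (n + 2) → _) =
          (Matrix.of (Fin.cons a (Fin.cons a' u) : Fin (n + 2) → _)).submatrix
            (Equiv.swap 0 1) id := by
        ext i j
        refine Fin.cases (by simp) (fun i => Fin.cases (by simp) (fun i => ?_) i) i
        rw [Matrix.submatrix_apply, Equiv.swap_apply_of_ne_of_ne (Fin.succ_ne_zero _)
          (by rw [← Fin.succ_zero_eq_one]; exact fun h => Fin.succ_ne_zero _ (Fin.succ_injective _ h))]
        rfl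
      rw [e2, Matrix.det_permute]
      simp
    · refine tau_of_hom (n := n + 2) ((prod_Lf_hom u v).mul ?_) hn
      exact ((Lf_hom _ _).mul (Lf_hom _ _)).add ((Lf_hom _ _).mul (Lf_hom _ _))

theorem pb_X (J : Matrix (Fin D) (Fin D') ℂ) (k l : Fin D) :
    pb J (X (k, l)) = Lf (J k) fun n => (starRingEnd ℂ) (J l n) := aeval_X _ _

theorem pb_Lf (J : Matrix (Fin D) (Fin D') ℂ) (a b : Fin D → ℂ) :
    pb J (Lf a b) = Lf (a ᵥ* J) (b ᵥ* J.map (starRingEnd ℂ)) := by
  simp only [Lf, map_sum, map_mul, pb, aeval_X, aeval_C, algebraMap_eq, Matrix.vecMul, dotProduct,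
    Finset.mul_sum, Finset.sum_mul, Matrix.map_apply, starRingEnd_apply]
  rw [Finset.sum_congr rfl fun k _ => Finset.sum_comm, Finset.sum_comm]
  refine Finset.sum_congr rfl fun m _ => ?_
  rw [Finset.sum_congr rfl fun k _ => Finset.sum_comm, Finset.sum_comm]
  refine Finset.sum_congr rfl fun n _ => ?_
  rw [Finset.sum_comm]
  exact Finset.sum_congr rfl fun l _ => Finset.sum_congr rfl fun k _ => by ring

theorem pb_hom (J : Matrix (Fin D) (Fin D') ℂ) {P : Po D} {n : ℕ} (h : P.IsHomogeneous n) :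
    (pb J P).IsHomogeneous n := by
  have := h.aeval (n := 1) _ fun kl => Lf_hom (J kl.1) fun n => (starRingEnd ℂ) (J kl.2 n)
  rwa [one_mul] at this

theorem pb_comp (J : Matrix (Fin D) (Fin D') ℂ) (K : Matrix (Fin D') (Fin D'') ℂ) (P : Po D) :
    pb K (pb J P) = pb (J * K) P := by
  have : (pb K).comp (pb J) = pb (J * K) := by
    refine MvPolynomial.algHom_ext fun kl => ?_
    obtain ⟨k, l⟩ := kl
    rw [AlgHom.comp_apply, pb_X, pb_X, pb_Lf]
    congr 1
    funext n
    simp [Matrix.vecMul, dotProduct, Matrix.mul_apply]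
  exact DFunLike.congr_fun this P

theorem pb_one (P : Po D) : pb (1 : Matrix (Fin D) (Fin D) ℂ) P = P := by
  have : pb (1 : Matrix (Fin D) (Fin D) ℂ) = AlgHom.id ℂ _ := by
    refine MvPolynomial.algHom_ext fun kl => ?_
    obtain ⟨k, l⟩ := kl
    rw [pb_X, AlgHom.id_apply, ← Lf_single]
    congr 1 <;> funext n <;> simp [Matrix.one_apply, Pi.single_apply, eq_comm]
  rw [this]; rfl

/-- **Pull back of the top degree part.** -/
theorem tau_pb (J : Matrix (Fin D) (Fin D) ℂ) (P : Po D) :
    tau (pb J P) = (Complex.normSq J.det : ℂ) * tau P := by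
  induction P using Lf_ind with
  | h0 => simp [tau_zero]
  | ha P Q hP hQ => rw [map_add, tau_add, tau_add, hP, hQ, mul_add]
  | hs c P hP => rw [map_smul, tau_smul, tau_smul, hP]; ring
  | h n u v =>
    by_cases hn : n = D
    · subst hn
      have h1 := tau_prod_Lf (Matrix.of u * J) (Matrix.of v * J.map (starRingEnd ℂ))
      have h2 := tau_prod_Lf (Matrix.of u) (Matrix.of v)
      have h3 : (J.map (starRingEnd ℂ)).det = (starRingEnd ℂ) J.det :=
        (RingHom.map_det _ _).symm
      rw [map_prod]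
      simp only [pb_Lf]
      refine h1.trans ?_
      rw [show tau (∏ i, Lf (u i) (v i)) = _ from h2, Matrix.det_mul, Matrix.det_mul, h3,
        ← Complex.mul_conj]
      ring
    · rw [tau_of_hom (pb_hom J (prod_Lf_hom u v)) hn, tau_of_hom (prod_Lf_hom u v) hn, mul_zero]

end Vale.Agent.P269CG
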