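import Vale.Agent.P269CG.Tau

/-!
P269 block C, row C1: the operators `∂ / ∂z`, `∂ / ∂z̄` (product rule, symmetry, chain rule).
-/

noncomputable section

namespace Vale.Agent.P269CG

open Vale.Agent.P272.K Filter Vale.Agent.P269C
open scoped Matrix Topology ContDiff

variable {D D' : ℕ} {V : Type} [NormedAddCommGroup V] [NormedSpace ℂ V]

/-- `(∂ / ∂x_k + c ∂ / ∂y_k) / 2` on vector valued functions. -/
def op (c : ℂ) (k : Fin D) (f : Cm D → V) (z : Cm D) : V :=
  (2⁻¹ : ℂ) • (fderiv ℝ f z (Pi.single k 1) + c • fderiv ℝ f z (Pi.single k Complex.I))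

theorem dz_op (k : Fin D) (f : Cm D → ℂ) : dz k f = op (-Complex.I) k f := by
  funext z; simp only [dz, op, smul_eq_mul]; ring

theorem dzb_op (k : Fin D) (f : Cm D → ℂ) : dzb k f = op Complex.I k f := by
  funext z; simp only [dzb, op, smul_eq_mul]; ring

variable {c c' : ℂ} {k j : Fin D} {z : Cm D}

theorem op_congr {f g : Cm D → V} (h : f =ᶠ[𝓝 z] g) : op c k f z = op c k g z := by
  simp only [op, h.fderiv_eq]

theorem op_congr' {f g : Cm D → V} (h : f =ᶠ[𝓝 z] g) : op c k f =ᶠ[𝓝 z] op c k g :=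
  h.eventuallyEq_nhds.mono fun _ hy => op_congr hy

theorem op_const (x : V) : op c k (fun _ => x) z = 0 := by simp [op]

theorem op_add {f g : Cm D → V} (hf : DifferentiableAt ℝ f z) (hg : DifferentiableAt ℝ g z) :
    op c k (fun y => f y + g y) z = op c k f z + op c k g z := by
  simp only [op, fderiv_fun_add hf hg, add_apply]; module

theorem op_neg (f : Cm D → V) : op c k (fun y => -f y) z = -op c k f z := by
  simp only [op, fderiv_fun_neg, neg_apply]; module

theorem op_sub {f g : Cm D → V} (hf : DifferentiableAt ℝ f z) (hg : DifferentiableAt ℝ g z) :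
    op c k (fun y => f y - g y) z = op c k f z - op c k g z := by
  simp only [op, fderiv_fun_sub hf hg, sub_apply]; module

theorem op_sum {J : Type*} (s : Finset J) {f : J → Cm D → V}
    (hf : ∀ i ∈ s, DifferentiableAt ℝ (f i) z) :
    op c k (fun y => ∑ i ∈ s, f i y) z = ∑ i ∈ s, op c k (f i) z := by
  simp only [op, fderiv_fun_sum hf, FunLike.coe_sum, Finset.sum_apply, smul_add,
    Finset.smul_sum, Finset.sum_add_distrib]

theorem op_smul {f : Cm D → ℂ} {g : Cm D → V} (hf : DifferentiableAt ℝ f z)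
    (hg : DifferentiableAt ℝ g z) :
    op c k (fun y => f y • g y) z = op c k f z • g z + f z • op c k g z := by
  simp only [op, fderiv_fun_smul hf hg, add_apply,
    smul_apply, ContinuousLinearMap.smulRight_apply, smul_eq_mul]
  module

theorem op_mul {A : Type} [NormedRing A] [NormedAlgebra ℂ A] {f g : Cm D → A}
    (hf : DifferentiableAt ℝ f z) (hg : DifferentiableAt ℝ g z) :
    op c k (fun y => f y * g y) z = op c k f z * g z + f z * op c k g z := by
  simp only [op, fderiv_fun_mul' hf hg, add_apply,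
    smul_apply, smul_eq_mul, MulOpposite.smul_eq_mul_unop,
    MulOpposite.unop_op, smul_mul_assoc, mul_smul_comm, add_mul, mul_add, smul_add]
  abel

theorem op_clm {W : Type} [NormedAddCommGroup W] [NormedSpace ℂ W] (l : V →L[ℂ] W)
    {f : Cm D → V} (hf : DifferentiableAt ℝ f z) :
    op c k (fun y => l (f y)) z = l (op c k f z) := by
  have := ((l.restrictScalars ℝ).hasFDerivAt.comp z hf.hasFDerivAt).fderiv
  simp only [op, map_smul, map_add]
  rw [show (fun y => l (f y)) = (l.restrictScalars ℝ) ∘ f from rfl, this]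
  rfl

theorem op_star {f : Cm D → ℂ} (hf : DifferentiableAt ℝ f z) :
    op c k (fun y => (starRingEnd ℂ) (f y)) z =
      (starRingEnd ℂ) (op ((starRingEnd ℂ) c) k f z) := by
  have := (Complex.conjCLE.toContinuousLinearMap.hasFDerivAt.comp z hf.hasFDerivAt).fderiv
  rw [op, show (fun y => (starRingEnd ℂ) (f y)) = Complex.conjCLE.toContinuousLinearMap ∘ f
    from rfl, this]
  simp [op, map_ofNat]

theorem contDiffAt_op {n m : WithTop ℕ∞} {f : Cm D → V} (h : ContDiffAt ℝ n f z)
    (hm : m + 1 ≤ n) : ContDiffAt ℝ m (op c k f) z :=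
  (((h.fderiv_right hm).clm_apply contDiffAt_const).add
    (((h.fderiv_right hm).clm_apply contDiffAt_const).const_smul c)).const_smul _

theorem sm_op {f : Cm D → V} (h : ContDiffAt ℝ ∞ f z) : ContDiffAt ℝ ∞ (op c k f) z :=
  contDiffAt_op h (by simp)

theorem sm_diff {E : Type} [NormedAddCommGroup E] [NormedSpace ℝ E] {W : Type}
    [NormedAddCommGroup W] [NormedSpace ℝ W] {f : E → W} {z : E} (h : ContDiffAt ℝ ∞ f z) :
    DifferentiableAt ℝ f z := h.differentiableAt (by simp)

/-- Smoothness of finite order spreads to a neighbourhood. -/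
theorem sm_ev {E : Type} [NormedAddCommGroup E] [NormedSpace ℝ E] {W : Type}
    [NormedAddCommGroup W] [NormedSpace ℝ W] {f : E → W} {z : E} (h : ContDiffAt ℝ ∞ f z)
    (n : ℕ) : ∀ᶠ y in 𝓝 z, ContDiffAt ℝ n f y :=
  (h.of_le (by exact_mod_cast le_top)).eventually (by simp)

theorem op_op {f : Cm D → V} (h : ContDiffAt ℝ 2 f z) :
    op c k (op c' j f) z = op c' j (op c k f) z := by
  have h1 : DifferentiableAt ℝ (fderiv ℝ f) z :=
    (h.fderiv_right (m := 1) (by norm_num)).differentiableAt (by simp)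
  have h2 (v) : HasFDerivAt (fun y => fderiv ℝ f y v)
      ((ContinuousLinearMap.apply ℝ V v).comp (fderiv ℝ (fderiv ℝ f) z)) z :=
    (ContinuousLinearMap.apply ℝ V v).hasFDerivAt.comp z h1.hasFDerivAt
  have h3 (c : ℂ) (k : Fin D) (v) : fderiv ℝ (op c k f) z v = (2⁻¹ : ℂ) •
      (fderiv ℝ (fderiv ℝ f) z v (Pi.single k 1) +
        c • fderiv ℝ (fderiv ℝ f) z v (Pi.single k Complex.I)) := by
    have := (((h2 (Pi.single k 1)).add ((h2 (Pi.single k Complex.I)).const_smul c)).const_smul
      (2⁻¹ : ℂ)).fderiv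
    exact DFunLike.congr_fun this v
  have hs := (h.isSymmSndFDerivAt (by simp)).eq
  rw [op, op, h3, h3, h3, h3, hs (Pi.single k 1) (Pi.single j 1),
    hs (Pi.single k 1) (Pi.single j Complex.I), hs (Pi.single k Complex.I) (Pi.single j 1),
    hs (Pi.single k Complex.I) (Pi.single j Complex.I)]
  module

theorem op_hol {f : Cm D → V} (h : DifferentiableAt ℂ f z) :
    op c k f z = ((1 + c * Complex.I) / 2) • fderiv ℂ f z (Pi.single k 1) := by
  have e : (Pi.single k Complex.I : Cm D) = Complex.I • (Pi.single k 1 : Cm D) := by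
    rw [← Pi.single_smul, smul_eq_mul, mul_one]
  rw [op, h.fderiv_restrictScalars ℝ, e]
  simp only [ContinuousLinearMap.coe_restrictScalars', map_smul]
  module

theorem opb_hol {f : Cm D → V} (h : DifferentiableAt ℂ f z) : op Complex.I k f z = 0 := by
  rw [op_hol h]; simp

theorem opz_hol {f : Cm D → V} (h : DifferentiableAt ℂ f z) :
    op (-Complex.I) k f z = fderiv ℂ f z (Pi.single k 1) := by
  rw [op_hol h]; simp

theorem fderiv_eq_op (f : Cm D → V) (z v : Cm D) : fderiv ℝ f z v =
    ∑ k, (v k • op (-Complex.I) k f z + (starRingEnd ℂ) (v k) • op Complex.I k f z) := by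
  have e : v = ∑ k, ((v k).re • (Pi.single k 1 : Cm D) + 
      (v k).im • (Pi.single k Complex.I : Cm D)) := by
    funext i
    simp [Finset.sum_apply, Pi.single_apply, Finset.sum_add_distrib]
  conv_lhs => rw [e]
  rw [map_sum]
  refine Finset.sum_congr rfl fun k _ => ?_
  rw [map_add, map_smul, map_smul, op, op, ← Complex.coe_smul, ← Complex.coe_smul,
    Complex.re_eq_add_conj, Complex.im_eq_sub_conj]
  match_scalars
  · ring
  · field_simp; ring_nf; simp; ring

theorem jac_eq {φ : Cm D' → Cm D} {z : Cm D'} (h : DifferentiableAt ℂ φ z) (k : Fin D)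
    (i : Fin D') : jac φ z k i = fderiv ℂ φ z (Pi.single i 1) k := by
  rw [jac, Matrix.of_apply, dz_op, opz_hol (differentiableAt_pi.1 h k), fderiv_apply h]; rfl

theorem op_comp {φ : Cm D' → Cm D} {z : Cm D'} (h : DifferentiableAt ℂ φ z) {f : Cm D → V}
    (hf : DifferentiableAt ℝ f (φ z)) (i : Fin D') : op c i (fun y => f (φ y)) z =
      ∑ k, (((1 + c * Complex.I) / 2 * jac φ z k i) • op (-Complex.I) k f (φ z) +
        ((1 - c * Complex.I) / 2 * (starRingEnd ℂ) (jac φ z k i)) • op Complex.I k f (φ z)) := by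
  have e : (Pi.single i Complex.I : Cm D') = Complex.I • (Pi.single i 1 : Cm D') := by
    rw [← Pi.single_smul, smul_eq_mul, mul_one]
  rw [op, fderiv_fun_comp z hf (h.restrictScalars ℝ), h.fderiv_restrictScalars ℝ, e]
  simp only [ContinuousLinearMap.comp_apply, ContinuousLinearMap.coe_restrictScalars', map_smul,
    fderiv_eq_op f, jac_eq h, ← Finset.sum_add_distrib, Finset.smul_sum, Pi.smul_apply,
    smul_eq_mul, map_mul, Complex.conj_I]
  exact Finset.sum_congr rfl fun k _ => by module

theorem opz_comp {φ : Cm D' → Cm D} {z : Cm D'} (h : DifferentiableAt ℂ φ z) {f : Cm D → V}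
    (hf : DifferentiableAt ℝ f (φ z)) (i : Fin D') : op (-Complex.I) i (fun y => f (φ y)) z =
      ∑ k, jac φ z k i • op (-Complex.I) k f (φ z) := by
  rw [op_comp h hf]; simp

theorem opb_comp {φ : Cm D' → Cm D} {z : Cm D'} (h : DifferentiableAt ℂ φ z) {f : Cm D → V}
    (hf : DifferentiableAt ℝ f (φ z)) (i : Fin D') : op Complex.I i (fun y => f (φ y)) z =
      ∑ k, (starRingEnd ℂ) (jac φ z k i) • op Complex.I k f (φ z) := by
  rw [op_comp h hf]; simp

theorem jac_an {φ : Cm D' → Cm D} {z : Cm D'} (h : AnalyticAt ℂ φ z) (k : Fin D) (i : Fin D') :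
    AnalyticAt ℂ (fun y => jac φ y k i) z := by
  have h1 : AnalyticAt ℂ (fun y => fderiv ℂ φ y (Pi.single i 1) k) z :=
    (((ContinuousLinearMap.proj (R := ℂ) (φ := fun _ : Fin D => ℂ) k).comp
      (ContinuousLinearMap.apply ℂ (Cm D) (Pi.single i 1 : Cm D'))).analyticAt _).comp h.fderiv
  exact h1.congr (h.eventually_analyticAt.mono fun y hy => (jac_eq hy.differentiableAt k i).symm)

end Vale.Agent.P269CG
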