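import Vale.Agent.P269CG.Calc

/-!
P269 block C: the row `TAU`.
-/

noncomputable section

namespace Vale.Agent.P269CG

open MvPolynomial Vale.Agent.P269C Vale.Agent.P269CV Vale.Agent.P272.K Filter
open scoped Matrix Topology ContDiff

variable {D E : ℕ}

theorem tau_up (J : Matrix (Fin D) (Fin (D + 1)) ℂ) (P : Po D) : tau (pb J P) = 0 := by
  induction P using Lf_ind with
  | h0 => simp [tau_zero]
  | ha P Q hP hQ => rw [map_add, tau_add, hP, hQ, add_zero]
  | hs c P hP => rw [map_smul, tau_smul, hP, mul_zero]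
  | h n u v =>
    by_cases hn : n = D + 1
    · subst hn
      have h1 := tau_prod_Lf (Matrix.of u * J) (Matrix.of v * J.map (starRingEnd ℂ))
      have h2 : (Matrix.of u * J).det = 0 := by
        by_contra h
        have h3 := Matrix.rank_of_isUnit _ ((Matrix.isUnit_iff_isUnit_det _).2 (Ne.isUnit h))
        have h4 := (Matrix.rank_mul_le_left (Matrix.of u) J).trans (Matrix.rank_le_width _)
        rw [h3, Fintype.card_fin] at h4
        omega
      rw [map_prod]
      simp only [pb_Lf]
      refine h1.trans ?_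
      rw [h2, zero_mul, zero_div]
    · exact tau_of_hom (pb_hom J (prod_Lf_hom u v)) hn

theorem pb_Fm (J : Matrix (Fin D) (Fin E) ℂ) (M : Matrix (Fin D) (Fin D) ℂ) :
    pb J (Fm M) = Fm (Jᵀ * M * J.map star) := by
  simp only [Fm, map_sum, map_mul, pb, aeval_X, aeval_C, algebraMap_eq, Matrix.mul_apply,
    Finset.mul_sum, Finset.sum_mul, Matrix.map_apply, Matrix.transpose_apply]
  rw [Finset.sum_congr rfl fun k _ => Finset.sum_comm, Finset.sum_comm]
  refine Finset.sum_congr rfl fun m _ => ?_
  rw [Finset.sum_congr rfl fun k _ => Finset.sum_comm, Finset.sum_comm]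
  refine Finset.sum_congr rfl fun n _ => ?_
  rw [Finset.sum_comm]
  exact Finset.sum_congr rfl fun l _ => Finset.sum_congr rfl fun k _ => by ring

theorem det_col (A : Matrix (Fin (D + 1)) (Fin (D + 1)) ℂ)
    (h : ∀ i : Fin D, A i.castSucc (Fin.last D) = 0) :
    A.det = A (Fin.last D) (Fin.last D) * (A.submatrix Fin.castSucc Fin.castSucc).det := by
  rw [Matrix.det_succ_column A (Fin.last D), Fin.sum_univ_castSucc]
  simp [h, ← two_mul]

theorem det_row (A : Matrix (Fin (D + 1)) (Fin (D + 1)) ℂ)
    (h : ∀ i : Fin D, A (Fin.last D) i.castSucc = 0) :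
    A.det = A (Fin.last D) (Fin.last D) * (A.submatrix Fin.castSucc Fin.castSucc).det := by
  rw [Matrix.det_succ_row A (Fin.last D), Fin.sum_univ_castSucc]
  simp [h, ← two_mul]

theorem dz_coord (m j : Fin D) (y : Cm D) : dz m (fun x => x j) y = if j = m then 1 else 0 := by
  have h : HasFDerivAt (fun x : Cm D => x j) (ContinuousLinearMap.proj (R := ℂ) j) y :=
    (ContinuousLinearMap.proj (R := ℂ) (φ := fun _ : Fin D => ℂ) j).hasFDerivAt
  rw [dz_op, opz_hol h.differentiableAt, h.fderiv]
  simp [Pi.single_apply]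

theorem jac_pr (y : Cm (D + 1)) (k : Fin D) (m : Fin (D + 1)) :
    jac pr y k m = if k.castSucc = m then 1 else 0 := dz_coord m k.castSucc y

theorem jac_sl (b : Cm D) (k : Fin (D + 1)) (m : Fin D) :
    jac sl b k m = if k = m.castSucc then 1 else 0 := by
  refine Fin.lastCases ?_ (fun j => ?_) k
  · simp only [jac, sl, Matrix.of_apply, Fin.snoc_last, dz_op, op_const]
    rw [if_neg (Fin.castSucc_lt_last m).ne']
  · simp only [jac, sl, Matrix.of_apply, Fin.snoc_castSucc, dz_coord, Fin.castSucc_inj]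

theorem tau_snoc (a b : Fin (D + 1) → ℂ) (u v : Fin D → Fin (D + 1) → ℂ) :
    tau (Lf a b * ∏ i, Lf (u i) (v i)) =
      (Matrix.of (Fin.snoc (α := fun _ => Fin (D + 1) → ℂ) u a)).det *
        (Matrix.of (Fin.snoc (α := fun _ => Fin (D + 1) → ℂ) v b)).det / Real.pi ^ (D + 1) := by
  rw [← tau_prod_Lf, Fin.prod_univ_castSucc, mul_comm]
  have (w : Fin (D + 1) → Fin (D + 1) → ℂ) (i) : Matrix.of w i = w i := rfl
  simp only [this, Fin.snoc_castSucc, Fin.snoc_last]

theorem tau_fib0 (a b : Fin (D + 1) → ℂ) (P : Po D) (y : Cm (D + 1)) :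
    tau (Lf a b * pb (jac pr y) P) = a (Fin.last D) * b (Fin.last D) / Real.pi * tau P := by
  induction P using Lf_ind with
  | h0 => simp [tau_zero]
  | ha P Q hP hQ => rw [map_add, mul_add, tau_add, tau_add, hP, hQ, mul_add]
  | hs c P hP => rw [map_smul, mul_smul_comm, tau_smul, tau_smul, hP]; ring
  | h n u v =>
    by_cases hn : n = D
    · subst hn
      have e : (jac pr y).map (starRingEnd ℂ) = jac pr y := by
        ext k m; simp [jac_pr, apply_ite]
      have h1 (w : Fin n → Fin n → ℂ) (a : Fin (n + 1) → ℂ) :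
          (Matrix.of (Fin.snoc (α := fun _ => Fin (n + 1) → ℂ) (fun i => w i ᵥ* jac pr y) a)).det =
            a (Fin.last n) * (Matrix.of w).det := by
        rw [det_col]
        · congr 2
          · simp
          · ext i j; simp [Matrix.vecMul, dotProduct, jac_pr]
        · intro i; simp [Matrix.vecMul, dotProduct, jac_pr, (Fin.castSucc_lt_last _).ne]
      rw [map_prod]
      simp only [pb_Lf, e]
      rw [tau_snoc, h1, h1, show tau (∏ i, Lf (u i) (v i)) = _ from
        tau_prod_Lf (Matrix.of u) (Matrix.of v)]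
      ring
    · rw [tau_of_hom ((Lf_hom a b).mul (pb_hom _ (prod_Lf_hom u v))) (by omega),
        tau_of_hom (prod_Lf_hom u v) hn, mul_zero]

theorem tau_fib (M : Matrix (Fin (D + 1)) (Fin (D + 1)) ℂ) (P : Po D) (y : Cm (D + 1)) :
    tau (Fm M * pb (jac pr y) P) = M (Fin.last D) (Fin.last D) / Real.pi * tau P := by
  simp only [Fm, Finset.sum_mul, tau_sum, mul_assoc, tau_C_mul, ← Lf_single, tau_fib0,
    Pi.single_apply]
  simp [div_eq_mul_inv, mul_assoc]

theorem tau_res (P : Po (D + 1)) (b : Cm D) :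
    tau (X (Fin.last D, Fin.last D) * P) = tau (pb (jac sl b) P) / Real.pi := by
  induction P using Lf_ind with
  | h0 => simp [tau_zero]
  | ha P Q hP hQ => rw [map_add, mul_add, tau_add, tau_add, hP, hQ, add_div]
  | hs c P hP => rw [map_smul, mul_smul_comm, tau_smul, tau_smul, hP]; ring
  | h n u v =>
    by_cases hn : n = D
    · subst hn
      have e : (jac sl b).map (starRingEnd ℂ) = jac sl b := by
        ext k m; simp [jac_sl, apply_ite]
      have h1 (w : Fin n → Fin (n + 1) → ℂ) : (Matrix.of (Fin.snoc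
          (α := fun _ => Fin (n + 1) → ℂ) w (Pi.single (Fin.last n) 1))).det =
            (Matrix.of fun i => w i ᵥ* jac sl b).det := by
        rw [det_row]
        · simp only [Matrix.of_apply, Fin.snoc_last, Pi.single_eq_same, one_mul]
          congr 1
          ext i j; simp [Matrix.vecMul, dotProduct, jac_sl]
        · intro i; simp [(Fin.castSucc_lt_last _).ne]
      rw [map_prod, ← Lf_single, tau_snoc, h1, h1]
      simp only [pb_Lf, e]
      rw [show tau (∏ i, Lf (u i ᵥ* jac sl b) (v i ᵥ* jac sl b)) = _ from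
        tau_prod_Lf (Matrix.of fun i => u i ᵥ* jac sl b) (Matrix.of fun i => v i ᵥ* jac sl b)]
      ring
    · rw [tau_of_hom ((isHomogeneous_X _ _).mul (prod_Lf_hom u v)) (by omega),
        tau_of_hom (pb_hom _ (prod_Lf_hom u v)) hn, zero_div]

section
variable {G : Type} [NormedAddCommGroup G] [NormedSpace ℝ G] {k : WithTop ℕ∞} {z : G}

/-- The coefficients are of class `C^k` at `z`. -/
def SC (k : WithTop ℕ∞) (β : G → Po D) (z : G) : Prop :=
  ∀ m, ContDiffAt ℝ k (fun y => coeff m (β y)) z

theorem SC.tau {β : G → Po D} (h : SC k β z) : ContDiffAt ℝ k (fun y => tau (β y)) z :=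
  (ContDiffAt.sum fun _ _ => contDiffAt_const.mul (h _)).div_const _

theorem SC.const (P : Po D) : SC k (fun _ : G => P) z := fun _ => contDiffAt_const

theorem SC.add {β γ : G → Po D} (h : SC k β z) (h' : SC k γ z) : SC k (fun y => β y + γ y) z :=
  fun m => by simpa only [coeff_add] using (h m).add (h' m)

theorem SC.mul {β γ : G → Po D} (h : SC k β z) (h' : SC k γ z) : SC k (fun y => β y * γ y) z :=
  fun m => by simpa only [coeff_mul] using ContDiffAt.sum fun _ _ => (h _).mul (h' _)

theorem SC.C {f : G → ℂ} (h : ContDiffAt ℝ k f z) : SC k (fun y => (C (f y) : Po D)) z := fun m => by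
  simp only [coeff_C]
  split_ifs
  exacts [h, contDiffAt_const]

theorem SC.sum {J : Type*} (s : Finset J) {β : J → G → Po D} (h : ∀ j ∈ s, SC k (β j) z) :
    SC k (fun y => ∑ j ∈ s, β j y) z :=
  fun m => by simpa only [coeff_sum] using ContDiffAt.sum fun j hj => h j hj m

theorem SC.Fm {M : G → Matrix (Fin D) (Fin D) ℂ} (h : ∀ p q, ContDiffAt ℝ k (fun y => M y p q) z) :
    SC k (fun y => Fm (M y)) z :=
  SC.sum _ fun _ _ => SC.sum _ fun _ _ => (SC.C (h _ _)).mul (SC.const _)

theorem SC.pb0 {J : G → Matrix (Fin D) (Fin E) ℂ} (h : ∀ p q, ContDiffAt ℝ k (fun y => J y p q) z)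
    (P : Po D) : SC k (fun y => pb (J y) P) z := by
  induction P using MvPolynomial.induction_on with
  | C a => simpa only [pb, aeval_C] using SC.const _
  | add P Q hP hQ => simpa only [map_add] using hP.add hQ
  | mul_X P j hP =>
    simp only [map_mul]
    refine hP.mul ?_
    simp only [pb, aeval_X]
    exact SC.sum _ fun m _ => SC.sum _ fun n _ => (SC.C ((h _ _).mul
      (Complex.conjCLE.contDiff.contDiffAt.comp z (h _ _)))).mul (SC.const _)

theorem coeff_pb (J : Matrix (Fin D) (Fin E) ℂ) (P : Po D) (m : Fin E × Fin E →₀ ℕ) :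
    coeff m (pb J P) = ∑ s ∈ (Finsupp.finite_of_degree_le (σ := Fin D × Fin D) m.degree).toFinset,
      coeff s P * coeff m (pb J (monomial s 1)) := by
  induction P using MvPolynomial.induction_on' with
  | add P Q hP hQ => simp only [map_add, coeff_add, hP, hQ, add_mul, Finset.sum_add_distrib]
  | monomial u a =>
    simp only [coeff_monomial, ite_mul, zero_mul, Finset.sum_ite_eq]
    have e : pb J (monomial u a) = a • pb J (monomial u 1) := by
      rw [← map_smul, smul_monomial, smul_eq_mul, mul_one]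
    rw [e, coeff_smul, smul_eq_mul]
    split_ifs with h
    · rfl
    · rw [(pb_hom J (isHomogeneous_monomial 1 rfl)).coeff_eq_zero, mul_zero]
      intro e'
      exact h (by simp [e'])

theorem SC.pb {J : G → Matrix (Fin D) (Fin E) ℂ} (h : ∀ p q, ContDiffAt ℝ k (fun y => J y p q) z)
    {β : G → Po D} (hβ : SC k β z) : SC k (fun y => pb (J y) (β y)) z := fun m => by
  simp only [coeff_pb _ (β _) m]
  exact ContDiffAt.sum fun s _ => (hβ s).mul (SC.pb0 h _ m)

end

theorem tau_pb' (J : Matrix (Fin D) (Fin D) ℂ) (P : Po D) :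
    tau (pb J P) = ((‖J.det‖ ^ 2 : ℝ) : ℂ) * tau P := by
  rw [tau_pb, Complex.normSq_eq_norm_sq]

/-- **Row TAU.** -/
theorem tau_row : TAU where
  add := tau_add
  cmul := tau_C_mul
  det := tau_pb'
  up := tau_up
  comp := pb_comp
  one := pb_one
  fm := pb_Fm
  fib := tau_fib
  res := tau_res
  hom _ := tau_of_hom
  sm _ _ _ h := SC.tau h
  smm _ _ _ _ h h' := SC.mul h h'
  smp _ _ _ _ h h' := SC.pb h h'

end Vale.Agent.P269CG
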